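import Vale.Agent.P057Z.Mn.Sk
import Vale.Agent.P057Z.Rg.Base

/-! From a regular cell without increment to frequencies depending on h. -/

set_option linter.all false

open Finset
open scoped BigOperators

namespace Vale.Agent.P057Z.Mn

noncomputable section

namespace Head

theorem pw {U V : ℝ} {a b : ℕ} (h1 : 1 ≤ U) (h : U ≤ V) (hab : a ≤ b) : U ^ a ≤ V ^ b :=
  (pow_le_pow_left₀ (by linarith) h a).trans (pow_le_pow_right₀ (h1.trans h) hab)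

theorem pp {U V : ℝ} {a k b : ℕ} (h1 : 1 ≤ U) (h : U ≤ V) (hab : a * k ≤ b) :
    (U ^ a) ^ k ≤ V ^ b := by
  rw [← pow_mul]; exact pw h1 h hab

theorem p1 {U V : ℝ} {b : ℕ} (h1 : 1 ≤ U) (h : U ≤ V) (hb : 1 ≤ b) : U ≤ V ^ b := by
  have := pw h1 h hb
  rwa [pow_one] at this

theorem en {a b : ℝ} (h : a ≤ b) : Real.exp (-b) ≤ Real.exp (-a) :=
  Real.exp_le_exp.2 (neg_le_neg h)

variable {Q : ℕ} [Fact Q.Prime] {n : ℕ} {ι : Type} [Fintype ι] [DecidableEq ι]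

theorem lap_ll {ρ : ℝ} (hρ : 0 < ρ) : LL (1 / ρ) (lap ρ : (ι → ZMod Q) → ℝ) := by
  refine ⟨fun u => Real.exp_pos _, fun u => ?_, fun u v => ?_⟩
  · unfold lap
    rw [Real.exp_le_one_iff]
    exact div_nonpos_of_nonpos_of_nonneg (neg_nonpos.2 (Ke.l1_nonneg u)) hρ.le
  · unfold lap
    rw [← Real.exp_add, Real.exp_le_exp]
    have h := Ke.l1_sub_le (u + v) v
    rw [add_sub_cancel_right] at h
    rw [show 1 / ρ * l1 v + -l1 u / ρ = (l1 v - l1 u) / ρ by ring]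
    exact div_le_div_of_nonneg_right (by linarith) hρ.le

theorem fa_mono {Ψ : (ι → ZMod Q) → ℝ} {K0 K0' : ℕ} {M η : ℝ} (h : FA Ψ K0 M η) (hK : K0 ≤ K0') :
    FA Ψ K0' M η := by
  obtain ⟨c, h1, h2⟩ := h
  have hs : Sm ι K0 ⊆ Sm ι K0' := fun k hk => by
    unfold Sm at hk ⊢
    rw [Fintype.mem_piFinset] at hk ⊢
    intro i
    have := mem_Icc.mp (hk i)
    exact mem_Icc.mpr ⟨by omega, by omega⟩
  refine ⟨fun k => if k ∈ Sm ι K0 then c k else 0, ?_, fun u => ?_⟩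
  · rw [← sum_subset hs fun k _ hk => by simp [hk]]
    exact (sum_congr rfl fun k hk => by simp only [if_pos hk]).trans_le h1
  · rw [← sum_subset hs fun k _ hk => by simp [hk]]
    rw [sum_congr (g := fun k => c k * ch (cs Q k ⬝ᵥ u)) rfl fun k hk => by simp only [if_pos hk]]
    exact h2 u

theorem kern (hSM : SM) {Y G ρ : ℝ} (hY : 10 ≤ Y) (hc : (Fintype.card ι : ℝ) ≤ Y) (hρ : 0 < ρ)
    (h1 : 1 / ρ ≤ Real.exp Y) (hG : G ≤ Real.exp Y) (hQ : Real.exp (5 * Y) ≤ Q) :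
    ∃ (φ : (ι → ZMod Q) → ℝ) (K0 : ℕ), (K0 : ℝ) ≤ Real.exp (5 * Y) ∧
      ∀ K0', K0 ≤ K0' → Kern ρ φ K0' (Real.exp (6 * Y ^ 2)) (Real.exp (-G)) := by
  have he : Real.exp (-Y) ≤ 1 / 2 := by
    rw [Real.exp_neg, ← one_div]
    exact one_div_le_one_div_of_le (by norm_num) (by linarith [Real.add_one_le_exp Y])
  obtain ⟨φ, K0, a1, a2, a3, a4⟩ := hSM Q ι Y G (1 / ρ) (1 / 2) (lap ρ) hY hc (by positivity) h1 he
    (by norm_num) hG hQ (lap_ll hρ)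
  refine ⟨φ, K0, a1, fun K0' hK => ⟨a2, fun u => ?_, fun u => ?_, fa_mono a4 hK⟩⟩
  · linarith [(a3 u).1]
  · have : 0 < lap ρ u := Real.exp_pos _
    linarith [(a3 u).2]

theorem s3_mono {f : V Q n → ℝ} {θ : ℝ} {T W r : ℕ} {ξ : V Q n → Fin r → V Q n} {B : Bil Q n ι}
    {ρn ρ5 κ κ' : ℝ} (h : S3 f θ T W ξ B ρn ρ5 κ) (hκ : κ' ≤ κ) : S3 f θ T W ξ B ρn ρ5 κ' := by
  obtain ⟨u, Y, γ, α, β, h1, h2, h3⟩ := h
  exact ⟨u, Y, γ, α, β, h1, h2, hκ.trans h3⟩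

theorem numW {Y Z G H : ℝ} {W T Q C : ℕ} (hY : 8000 ≤ Y) (hYZ : Y ≤ Z) (hC : 2 ≤ C) (hG1 : 1 ≤ G)
    (hG3 : 3 * G ≤ Z ^ C) (hH : H ≤ G) (hW : Real.exp (Z ^ C) ≤ W)
    (hWT : Z ^ C * Real.log W ≤ Real.log T) (hTQ : T ^ 2 ≤ Q) :
    1 ≤ W ∧ 0 ≤ Real.log W ∧ Real.exp (5 * (3 * Y)) ≤ Q ∧
      H * Real.log W ≤ Real.log (T / W : ℕ) := by
  have hY1 : 1 ≤ Y := by linarith
  have hW0 : (0 : ℝ) < W := (Real.exp_pos _).trans_le hW
  have hlW : Z ^ C ≤ Real.log W := (Real.le_log_iff_exp_le hW0).2 hW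
  have hlW0 : 0 ≤ Real.log W := by linarith
  have a4 := mul_le_mul_of_nonneg_right hG3 hlW0
  have a5 := mul_le_mul_of_nonneg_right hG1 hlW0
  have hlT : Real.log W ≤ Real.log T := by linarith
  have hT0 : (0 : ℝ) < T := by
    rcases Nat.eq_zero_or_pos T with rfl | h
    · rw [Nat.cast_zero, Real.log_zero] at hlT; linarith
    · exact_mod_cast h
  have hWT' : W ≤ T := by exact_mod_cast (Real.log_le_log_iff hW0 hT0).1 hlT
  have hW1 : 1 ≤ W := by exact_mod_cast hW0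
  refine ⟨hW1, hlW0, ?_, ?_⟩
  · have hYY : 16 * Y ≤ Y ^ 2 := by nlinarith
    have a1 : Y ^ 2 ≤ Z ^ C := pw hY1 hYZ hC
    have a2 : Real.exp (5 * (3 * Y)) ≤ T := (Real.le_log_iff_exp_le hT0).1 (by linarith)
    have a3 : T ≤ Q := (Nat.le_self_pow (by norm_num) T).trans hTQ
    exact a2.trans (by exact_mod_cast a3)
  · have a1 := Rg.log_div hW1 hWT'
    have a2 : Real.log 2 ≤ Real.log W := by
      linarith [Real.log_le_sub_one_of_pos (show (0 : ℝ) < 2 by norm_num)]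
    have a3 := mul_le_mul_of_nonneg_right hH hlW0
    linarith

theorem numL {X Y G lam : ℝ} (hY : 8000 ≤ Y) (hXY : X ≤ Y) (hG1 : 1 ≤ G) (hGX : G ≤ Real.exp X)
    (hl1 : 1 ≤ lam) (hlY : lam ≤ Real.exp Y) :
    G * G * lam ≤ Real.exp (2 * X) * lam ∧ G * G * lam ≤ Real.exp (3 * Y) ∧
      G * lam ≤ G * G * lam ∧ G ≤ Real.exp (3 * Y) ∧ 6 * (3 * Y) ^ 2 ≤ Y ^ 4 ∧
      Real.exp (-Y ^ 4) ≤ 1 / (G * G * lam) := by
  have hY1 : 1 ≤ Y := by linarith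
  have hl0 : 0 < lam := by linarith
  have hG0 : 0 < G := by linarith
  have hYY : 16 * Y ≤ Y ^ 2 := by nlinarith
  have hGGl : G * G * lam ≤ Real.exp (2 * X) * lam := by
    refine mul_le_mul_of_nonneg_right ?_ hl0.le
    rw [two_mul, Real.exp_add]
    exact mul_le_mul hGX hGX hG0.le (Real.exp_pos _).le
  have h3Y : G * G * lam ≤ Real.exp (3 * Y) := by
    refine hGGl.trans ((mul_le_mul_of_nonneg_left hlY (Real.exp_pos _).le).trans ?_)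
    rw [← Real.exp_add, Real.exp_le_exp]; linarith
  refine ⟨hGGl, h3Y, mul_le_mul_of_nonneg_right (le_mul_of_one_le_left hG0.le hG1) hl0.le,
    hGX.trans (Real.exp_le_exp.2 (by linarith)), ?_, ?_⟩
  · have a1 : 54 ≤ Y ^ 2 := by linarith
    have a2 := mul_le_mul_of_nonneg_right a1 (sq_nonneg Y)
    linarith [show Y ^ 2 * Y ^ 2 = Y ^ 4 by ring, show 6 * (3 * Y) ^ 2 = 54 * Y ^ 2 by ring]
  · rw [Real.exp_neg, ← one_div]
    refine one_div_le_one_div_of_le (by positivity) (h3Y.trans (Real.exp_le_exp.2 ?_))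
    have : Y ^ 2 ≤ Y ^ 4 := pw hY1 le_rfl (by norm_num)
    linarith

theorem numK {Y : ℝ} {C Ka Kb K1 : ℕ} (hY : 8000 ≤ Y) (hC : 2 ≤ C)
    (ka : (Ka : ℝ) ≤ Real.exp (5 * (3 * Y))) (kb : (Kb : ℝ) ≤ Real.exp (5 * (3 * Y)))
    (hK1 : Real.exp (Y ^ C) ≤ K1) : 1000 * max Ka Kb ≤ K1 := by
  have hYY : 16 * Y ≤ Y ^ 2 := by nlinarith
  have hY2 : Y ^ 2 ≤ Y ^ C := pw (by linarith) le_rfl hC
  have a1 : ((max Ka Kb : ℕ) : ℝ) ≤ Real.exp (5 * (3 * Y)) := by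
    rw [Nat.cast_max]; exact max_le ka kb
  have a2 : (1000 : ℝ) ≤ Real.exp Y := by linarith [Real.add_one_le_exp Y]
  have a3 := mul_le_mul a2 a1 (Nat.cast_nonneg _) (Real.exp_pos _).le
  rw [← Real.exp_add] at a3
  have a4 : Real.exp (Y + 5 * (3 * Y)) ≤ Real.exp (Y ^ C) := Real.exp_le_exp.2 (by linarith)
  have a5 : (1000 : ℝ) * (max Ka Kb : ℕ) ≤ K1 := a3.trans (a4.trans hK1)
  exact_mod_cast a5

theorem three {U : ℝ} {k C : ℕ} (h : 3 ≤ U) (hk : k + 1 ≤ C) : 3 * U ^ k ≤ U ^ C := by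
  have a1 : U ^ (k + 1) ≤ U ^ C := pw (by linarith) le_rfl hk
  rw [pow_succ'] at a1
  exact le_trans (mul_le_mul_of_nonneg_right h (by positivity)) a1

theorem numX {X A B D G lam : ℝ} (hX : X ≤ A) (hB : B ≤ A) (hD : 3 * A ≤ D) (hG : 1 ≤ G)
    (hl : 1 ≤ lam) (h : G * G * lam ≤ Real.exp (2 * X) * lam) (hA : 0 ≤ A) :
    B ≤ D ∧ 1 / (1 / (G * G * lam)) ≤ lam * Real.exp D ∧
      Real.exp (-D) / lam ≤ 1 / (G * G * lam) * Real.exp (-B) := by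
  have hl0 : 0 < lam := by linarith
  refine ⟨by linarith, ?_, ?_⟩
  · rw [one_div_one_div, mul_comm lam]
    exact h.trans (mul_le_mul_of_nonneg_right (Real.exp_le_exp.2 (by linarith)) hl0.le)
  · have b1 : 1 / (Real.exp (2 * X) * lam) ≤ 1 / (G * G * lam) :=
      one_div_le_one_div_of_le (by positivity) h
    refine le_trans ?_ (mul_le_mul_of_nonneg_right b1 (Real.exp_pos _).le)
    rw [show 1 / (Real.exp (2 * X) * lam) * Real.exp (-B) =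
      Real.exp (-B - 2 * X) / lam by rw [Real.exp_sub]; field_simp]
    exact div_le_div_of_nonneg_right (Real.exp_le_exp.2 (by linarith)) hl0.le

theorem numR {G H H' lam : ℝ} (hG : 1 ≤ G) (hl : 1 ≤ lam) (hH : H ≤ G) (hH' : H' ≤ G) :
    0 < 1 / (G * lam) ∧ 0 < 1 / (G * G * lam) ∧ 1 / (G * G * lam) ≤ 1 / (G * lam) ∧
      H * lam * (1 / (G * lam)) ≤ 1 ∧ H' * (1 / (G * G * lam)) ≤ 1 / (G * lam) ∧
      1 / (G * lam) ≤ 1 := by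
  have hl0 : 0 < lam := by linarith
  have hG0 : 0 < G := by linarith
  refine ⟨by positivity, by positivity, one_div_le_one_div_of_le (by positivity)
    (mul_le_mul_of_nonneg_right (le_mul_of_one_le_left hG0.le hG) hl0.le), ?_, ?_, ?_⟩
  · rw [mul_one_div, div_le_one (by positivity)]
    exact mul_le_mul_of_nonneg_right hH hl0.le
  · rw [mul_one_div, div_le_div_iff₀ (by positivity) (by positivity)]
    have := mul_le_mul_of_nonneg_right hH' (show 0 ≤ G * lam by positivity)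
    linarith
  · rw [div_le_one (by positivity)]; exact one_le_mul_of_one_le_of_one_le hG hl

theorem expo (CS CG : ℕ) : ∃ c a C : ℕ, CS ≤ c ∧ CG ≤ c ∧ 8000 ≤ C ∧ CS ≤ C ∧ CG ≤ C ∧ 1 ≤ c ∧
    1 ≤ a ∧ 4 ≤ a ∧ 4 ≤ 4 * c ∧ c ≤ 4 * c ∧ 4 * c ≤ a ∧ 4 * c * CG ≤ a ∧ 4 * c * CG ≤ C ∧
    a * c + 1 ≤ C ∧ 4 * CS ≤ C ∧ c * CG ≤ a * c ∧ 1 ≤ a * c := by
  obtain ⟨c, hc10, hcS, hcG⟩ : ∃ c : ℕ, 10 ≤ c ∧ CS ≤ c ∧ CG ≤ c :=
    ⟨10 + CS + CG, by omega, by omega, by omega⟩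
  obtain ⟨a, ha⟩ : ∃ a : ℕ, a = 4 * c * c := ⟨_, rfl⟩
  have n2 : 4 * c ≤ a := ha ▸ Nat.le_mul_of_pos_right _ (by omega)
  have n3 : 4 * c * CG ≤ a := ha ▸ Nat.mul_le_mul_left _ hcG
  have n4 : a ≤ a * c := Nat.le_mul_of_pos_right _ (by omega)
  have n5 : c * CG ≤ 4 * c * CG := Nat.mul_le_mul_right _ (by omega)
  refine ⟨c, a, a * c + 8000, ?_⟩
  omega

end Head

open Head in
theorem head_of (hSM : SM) (hST : START) (hGR : GR) : HEAD := by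
  obtain ⟨e1, he1, he1', e0, he0, he0', CS, hs⟩ := hST
  obtain ⟨CG, hg⟩ := hGR e1 he1 he1'
  obtain ⟨c, a, C, n1, n2, n3, n4, n5, n6, n7, n8, n9, n10, n11, n12, n13, n14, n15, n16, n17⟩ :=
    expo CS CG
  refine ⟨e1, he1, he1', e0, he0, he0', C, ?_⟩
  intro X Y Z Q _ n J T W K1 ι _ _ f lam κ δ q Ψ K ⟨hX, hXY, hYZ, hZ⟩ hn hJ hJZ hJn hι hW hWT hTQ
    hf hfree hl1 hlY hΨ hκ hκ' htr hδ0 hδ hreg hK1 hI
  have hcX : ∀ k : ℕ, k ≤ C → (k : ℝ) ≤ X := fun k hk => (Nat.cast_le.2 hk).trans hX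
  have hX8 : (8000 : ℝ) ≤ X := by exact_mod_cast hcX 8000 n3
  have hY8 := hX8.trans hXY
  have hX1 : 1 ≤ X := le_trans (by norm_num) hX8
  have hY1 := hX1.trans hXY
  have hZ1 := hY1.trans hYZ
  have hC2 : 2 ≤ C := le_trans (by norm_num) n3
  have hZa : Z ≤ Z ^ a := p1 hZ1 le_rfl n7
  have hZa1 : 1 ≤ Z ^ a := hZ1.trans hZa
  obtain ⟨G, hG⟩ : ∃ G : ℝ, G = (Z ^ a) ^ c := ⟨_, rfl⟩
  have hG1 : 1 ≤ G := hG ▸ one_le_pow₀ hZa1
  have hGS : (Z ^ a) ^ CS ≤ G := hG ▸ pw hZa1 le_rfl n1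
  have hGG : (Z ^ a) ^ CG ≤ G := hG ▸ pw hZa1 le_rfl n2
  have hG3 : 3 * G ≤ Z ^ C := by
    rw [hG, ← pow_mul]
    exact three (le_trans (by norm_num) (hY8.trans hYZ)) n14
  have hGC : G ≤ Z ^ C := by linarith only [hG1, hG3]
  have hGX : G ≤ Real.exp X := hGC.trans hZ
  obtain ⟨hW1, hlW0, hQ, hlog⟩ := numW hY8 hYZ hC2 hG1 hG3 hGG hW hWT hTQ
  obtain ⟨hGGl, h3Y, hGl, hG3Y, hY4, hρ0⟩ := numL hY8 hXY hG1 hGX hl1 hlY
  obtain ⟨r1, r2, r3, r4, r5, r6⟩ := numR hG1 hl1 hGS hGG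
  have h10 : 10 ≤ 3 * Y := by linarith only [hY8]
  have hι3 : (Fintype.card ι : ℝ) ≤ 3 * Y := by linarith only [hY8, hι]
  obtain ⟨φ, Ka, ka1, ka2⟩ := kern (Q := Q) (ι := ι) hSM h10 hι3 r1
    ((one_div_one_div _).trans_le (hGl.trans h3Y)) hG3Y hQ
  obtain ⟨φ0, Kb, kb1, kb2⟩ := kern (Q := Q) (ι := ι) hSM h10 hι3 r2
    ((one_div_one_div _).trans_le h3Y) hG3Y hQ
  have k1 := ka2 _ (le_max_left Ka Kb)
  have k0 := kb2 _ (le_max_right Ka Kb)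
  have hK := numK hY8 hC2 ka1 kb1 hK1
  have hY4' : Y ≤ Y ^ 4 := p1 hY1 le_rfl (by norm_num)
  have hY44 : Y ^ 4 ≤ Y ^ (4 * c) := pw hY1 le_rfl n9
  have hYS : (Y ^ 4) ^ CS ≤ Y ^ C := pp hY1 le_rfl n15
  have hJ0 : (0 : ℝ) ≤ J := Nat.cast_nonneg J
  have hXa : X ≤ X ^ (a * c) := p1 hX1 le_rfl n17
  obtain ⟨u1, u2, u3⟩ := numX hXa (pp hX1 le_rfl n16) (three (le_trans (by norm_num) hX8) n14) hG1
    hl1 hGGl (zero_le_one.trans (hX1.trans hXa))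
  obtain ⟨x0, l, a1, b1, c1, p, N, o1, o2, o3, o4, o5, o6, o7, o8, o9, o10, o11, o12, o13, o14⟩ :=
    hs X (Y ^ 4) (Z ^ a) Q n J T W (max Ka Kb) K1 ι f lam κ δ (1 / (G * lam)) (1 / (G * G * lam))
      _ _ q Ψ φ φ0 K ⟨hcX _ n4, hXY.trans hY4', pw hY1 hYZ n8, hGS.trans hGX⟩
      (hn.trans hZa) hJ (hJZ.trans hZa) ((mul_le_mul_of_nonneg_left hYS hJ0).trans hJn)
      (hι.trans hY4') ((Real.exp_le_exp.2 (hGS.trans hGC)).trans hW)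
      ((mul_le_mul_of_nonneg_right (hGS.trans hGC) hlW0).trans hWT) hTQ hf hfree hl1 hΨ
      ((en hZa).trans hκ) hκ' htr hδ0 (hδ.trans (en (hGS.trans hGC))) hreg hK hρ0 r3 r4
      (Real.exp_le_exp.2 hY4) (en hGS) k1 k0
      (fun h => hI (h.mono le_rfl (mul_le_mul_of_nonneg_left hYS hJ0) le_rfl
        (mul_le_mul_of_nonneg_right (hGS.trans hGC) hlW0) le_rfl u2 (en hYS)))
  have hXc : X ≤ X ^ c := p1 hX1 le_rfl n6
  have hXS : X ^ CS ≤ X ^ c := pw hX1 le_rfl n1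
  have hreg' : Reg q.B K K1 δ (T / W / W ^ 15) (T / W) := by
    refine hreg.mono le_rfl le_rfl ?_ (Nat.div_le_self _ _)
    rw [Nat.div_div_eq_div_mul, ← pow_succ']
    exact Nat.div_le_div_left (Nat.pow_le_pow_right hW1 (by norm_num)) (pow_pos hW1 _)
  obtain ⟨x1, j, r, ξ, ρn, ρ5, t1, t2, t3, t4, t5, t6⟩ :=
    hg (X ^ c) (Y ^ (4 * c)) (Z ^ a) Q n (T / W) W (max Ka Kb) K1 p N ι f δ (1 / (G * lam))
      (1 / (G * G * lam)) _ _ q.B φ φ0 K x0 l a1 b1 c1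
      ⟨(hcX _ n5).trans hXc, pw hX1 hXY n10, pw hY1 hYZ n11,
        (hGG.trans hGX).trans (Real.exp_le_exp.2 hXc)⟩
      (hn.trans hZa) (hι.trans (hY4'.trans hY44)) ((Real.exp_le_exp.2 (hGG.trans hGC)).trans hW)
      hlog ((Nat.pow_le_pow_left (Nat.div_le_self _ _) 2).trans hTQ)
      (fun x => ⟨(hf x).1, (hf x).2.trans (Real.exp_le_exp.2 hXc)⟩) q.sym htr.2 o1 hδ0
      (hδ.trans (en (hGG.trans hGC))) hreg' hK ((en hY44).trans hρ0) r5 r6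
      (Real.exp_le_exp.2 (hY4.trans hY44)) (en hGG) k1 k0 o2 o3 o4 o5 o6 o7 o8 (o9.trans hXS) o10
      (o11.trans hXS) o12 (o13.trans (en (pp hY1 hYZ n12))) o14
  rw [Nat.div_div_eq_div_mul, ← pow_succ'] at t6
  exact ⟨x1, j, r, ξ, ρn, ρ5, t1, t2.trans u1, u3.trans t3, t4, t5,
    s3_mono t6 (en (pp hY1 le_rfl n13))⟩

end

end Vale.Agent.P057Z.Mn
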