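import Vale.Agent.P057Z.Mn.Rg1

/-! The increment step from its three parts. -/

set_option linter.all false

open Finset
open scoped BigOperators

namespace Vale.Agent.P057Z.Mn

theorem pw {x : ℝ} (hx : 1 ≤ x) {a b : ℕ} (h : a ≤ b) : x ^ a ≤ x ^ b := pow_le_pow_right₀ hx h

theorem pw2 {x y : ℝ} (hx : 1 ≤ x) (hxy : x ≤ y) {a b : ℕ} (h : a ≤ b) : x ^ a ≤ y ^ b :=
  (pow_le_pow_left₀ (by linarith) hxy a).trans (pw (hx.trans hxy) h)

theorem pw3 {x : ℝ} (hx : 10 ≤ x) {a b : ℕ} (h : a < b) : 10 * x ^ a ≤ x ^ b := by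
  have h1 : x ^ (a + 1) ≤ x ^ b := pw (by linarith) h
  have h2 : 0 ≤ x ^ a := by positivity
  rw [pow_succ] at h1
  nlinarith

theorem log_ceil {a : ℝ} (ha : 1 ≤ a) : Real.log (⌈Real.exp a⌉₊ : ℕ) ≤ 2 * a := by
  have h0 := Real.exp_pos a
  have h1 : ((⌈Real.exp a⌉₊ : ℕ) : ℝ) ≤ Real.exp (2 * a) := by
    have b1 := (Nat.ceil_lt_add_one h0.le).le
    have b2 := Real.add_one_le_exp a
    have b3 : Real.exp (2 * a) = Real.exp a * Real.exp a := by rw [← Real.exp_add]; ring_nf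
    nlinarith
  have h2 : (0 : ℝ) < (⌈Real.exp a⌉₊ : ℕ) := h0.trans_le (Nat.le_ceil _)
  have := Real.log_le_log h2 h1
  rwa [Real.log_exp] at this

theorem exp_add_one {a b : ℝ} (ha : 0 ≤ a) (h : a + 1 ≤ b) : Real.exp a + 1 ≤ Real.exp b := by
  have b1 : (2 : ℝ) ≤ Real.exp 1 := by linarith [Real.add_one_le_exp (1 : ℝ)]
  have b2 : Real.exp a * Real.exp 1 ≤ Real.exp b := by
    rw [← Real.exp_add]; exact Real.exp_le_exp.mpr h
  have b3 := Real.one_le_exp ha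
  nlinarith

theorem num3 {s lT l1 A z lW : ℝ} (s1 : s ≤ 1 / 2) (hz : 100 ≤ z) (hT : z ^ 3 ≤ lT) (hA : A ≤ z)
    (hW0 : 0 ≤ lW) (hW : lW ≤ 2 * z) (h : (1 - s) * lT - A * lW ≤ l1) : 10 * z ^ 2 ≤ l1 := by
  have a1 : A * lW ≤ z * (2 * z) := (mul_le_mul_of_nonneg_right hA hW0).trans (by gcongr)
  have a2 : 100 * z ^ 2 ≤ z ^ 3 := by nlinarith [sq_nonneg z]
  have a3 : 1 / 2 * lT ≤ (1 - s) * lT := mul_le_mul_of_nonneg_right (by linarith) (by nlinarith)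
  nlinarith

theorem num4 {A z lW : ℝ} (hz : 100 ≤ z) (hA : A ≤ z) (hW0 : 0 ≤ lW) (hW : lW ≤ 2 * z) :
    A * lW ≤ 2 * z ^ 2 := by
  have a1 : A * lW ≤ z * (2 * z) := (mul_le_mul_of_nonneg_right hA hW0).trans (by gcongr)
  nlinarith

/-- the increment from a regular cell -/
def MID : Prop :=
  ∃ ε : ℝ, 0 < ε ∧ ε ≤ 1 ∧ ∃ C : ℕ, ∀ (X Y Z : ℝ) (Q : ℕ)
    [Fact Q.Prime] (n J T W K1 : ℕ) (ι : Type) [Fintype ι] [DecidableEq ι] (f : V Q n → ℝ)
    (lam κ δ : ℝ) (q : Quad Q n ι) (Ψ : (ι → ZMod Q) → ℝ)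
    (K : Submodule (ZMod Q) (ι → ZMod Q)),
    Par C X Y Z → (n : ℝ) ≤ Z → 1 ≤ J → (J : ℝ) ≤ Z → J * Y ^ C ≤ n → (Fintype.card ι : ℝ) ≤ Y →
    Real.exp (Z ^ C) ≤ W → Z ^ C * Real.log W ≤ Real.log T → T ^ 2 ≤ Q →
    (∀ x, 0 ≤ f x ∧ f x ≤ Real.exp X) → Free f → 1 ≤ lam → lam ≤ Real.exp Y → LL lam Ψ →
    Real.exp (-Z) ≤ κ → κ ≤ 𝔼 x ∈ bx Q n T, Ψ (q.ev x) * (f x - 1) →
    Triv q K → 0 ≤ δ → δ ≤ Real.exp (-Z ^ C) → Reg q.B K K1 δ (T / W ^ 20) T →
    Real.exp (Y ^ C) ≤ K1 →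
    Inc f (1 + ε) T (J * Y ^ C) (1 / J) (Z ^ C * Real.log W) (Fintype.card ι + X ^ C)
      (lam * Real.exp (X ^ C)) (Real.exp (-Y ^ C))

theorem mid_of (hH : HEAD) (hT : TAIL) : MID := by
  obtain ⟨e1, e1p, e1l, e0, e0p, e0l, CH, hH⟩ := hH
  obtain ⟨CT, hT⟩ := hT (e1 / 100) (by positivity) (by linarith)
  obtain ⟨c, hc⟩ : ∃ c, c = CH + CT + 100 := ⟨_, rfl⟩
  refine ⟨min e0 (e1 / 10), lt_min e0p (by positivity), (min_le_left _ _).trans (by linarith),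
    c * c, ?_⟩
  intro X Y Z Q _ n J T W K1 ι _ _ f lam κ δ q Ψ K hP hn hJ hJZ hRn hcd hW hlT hQ hf hF hl1 hl hL
    hκ hk hTr hδ0 hδ hReg hK1
  obtain ⟨p1, p2, p3, p4⟩ := hP
  have c0 : 100 ≤ c := by omega
  have c1 : c < c * c := by nlinarith
  have c2 : c * CT < c * c := Nat.mul_lt_mul_of_pos_left (by omega) (by omega)
  have hcX : (c : ℝ) ≤ X := le_trans (by exact_mod_cast c1.le) p1
  have hc100 : (100 : ℝ) ≤ c := by exact_mod_cast c0
  have hX : 100 ≤ X := hc100.trans hcX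
  have hY : 100 ≤ Y := hX.trans p2
  have hZ : 100 ≤ Z := hY.trans p3
  have hX1 : 1 ≤ X := by linarith only [hX]
  have hY1 : 1 ≤ Y := by linarith only [hY]
  have hZ1 : 1 ≤ Z := by linarith only [hZ]
  have hCH : (CH : ℝ) ≤ X := le_trans (by exact_mod_cast (by omega : CH ≤ c)) hcX
  have hCT : (CT : ℝ) ≤ X := le_trans (by exact_mod_cast (by omega : CT ≤ c)) hcX
  have z1 : 10 * Z ≤ Z ^ c := by
    simpa using pw3 (x := Z) (by linarith only [hZ]) (a := 1) (b := c) (by omega)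
  have z2 : 10 * Z ^ c ≤ Z ^ (c * c) := pw3 (by linarith only [hZ]) c1
  have y1 : 10 * Y ≤ Y ^ c := by
    simpa using pw3 (x := Y) (by linarith only [hY]) (a := 1) (b := c) (by omega)
  have yz : Y ^ c ≤ Z ^ c := pw2 hY1 p3 le_rfl
  have zH : Z ^ CH ≤ Z ^ (c * c) := pw hZ1 (by omega)
  have zT : 10 * (Z ^ c) ^ CT ≤ Z ^ (c * c) := by
    rw [← pow_mul]; exact pw3 (by linarith only [hZ]) c2
  have zT0 : 0 ≤ (Z ^ c) ^ CT := by positivity
  have yT : (Y ^ c) ^ CT ≤ Y ^ (c * c) := by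
    rw [← pow_mul]; exact pw hY1 c2.le
  have yH : 10 * Y ^ CH ≤ Y ^ c := pw3 (by linarith only [hY]) (by omega)
  have yH2 : Y ^ CH ≤ Y ^ (c * c) := pw hY1 (by omega)
  have yH0 : 0 ≤ Y ^ CH := by positivity
  have xH : X ^ CH ≤ Y ^ CH := pw2 hX1 p2 le_rfl
  have xC : X ^ CH ≤ X ^ (c * c) := pw hX1 (by omega)
  have xH0 : 0 ≤ X ^ CH := by positivity
  generalize Z ^ (c * c) = w2 at *
  generalize Z ^ c = w1 at *
  generalize Y ^ (c * c) = v2 at *
  generalize Y ^ c = v1 at *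
  generalize X ^ (c * c) = u2 at *
  have hWl := le_log_of_exp hW
  have hW0 : 1 ≤ Real.log W := by linarith only [hWl, z1, z2, hZ]
  have hW1 : 1 ≤ W := one_le_of_log (by linarith only [hW0])
  have hJ0 : (0 : ℝ) < J := by exact_mod_cast hJ
  have hs0 : 0 ≤ 1 / (J : ℝ) := by positivity
  have hs1 : 1 / (J : ℝ) ≤ 1 := by rw [div_le_one hJ0]; exact_mod_cast hJ
  have j2 : (J : ℝ) * Y ^ CH ≤ J * v2 := by gcongr
  have j3 : (J : ℝ) * v1 ^ CT ≤ J * v2 := by gcongr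
  have lH : Z ^ CH * Real.log W ≤ w2 * Real.log W := by gcongr
  have lT : 10 * w1 ^ CT * Real.log W ≤ w2 * Real.log W := by gcongr
  have lU : 1000 * Real.log W ≤ w2 * Real.log W :=
    mul_le_mul_of_nonneg_right (by linarith only [z1, z2, hZ]) (by linarith only [hW0])
  have hlam : lam * Real.exp (X ^ CH) ≤ lam * Real.exp u2 := by gcongr
  by_cases hI : Inc f (1 + e0) T (J * Y ^ CH) (1 / J)
      (Z ^ CH * Real.log W) (Fintype.card ι) (lam * Real.exp (X ^ CH)) (Real.exp (-Y ^ CH))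
  · exact hI.mono (by linarith only [min_le_left e0 (e1 / 10)]) j2 le_rfl lH
      (by linarith only [xH0, xC]) hlam (Real.exp_le_exp.mpr (by linarith only [yH2]))
  obtain ⟨x1, j, r, ξ, ρn, ρ5, hj, hr, h5, h5n, hn1', hS3⟩ :=
    hH X Y Z Q n J T W K1 ι f lam κ δ q Ψ K ⟨hCH, p2, p3, zH.trans p4⟩ hn hJ hJZ (j2.trans hRn) hcd
      ((Real.exp_le_exp.mpr zH).trans hW) (lH.trans hlT) hQ hf hF hl1 hl hL hκ hk hTr hδ0
      (hδ.trans (Real.exp_le_exp.mpr (by linarith only [zH]))) hReg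
      ((Real.exp_le_exp.mpr yH2).trans hK1) hI
  have hT1 : 1 ≤ T := one_le_of_log (by linarith only [hlT, lU, hW0])
  have hW13 : W ^ 13 ≤ T := pow_le_of_log hW1 hT1 (by push_cast; linarith only [hlT, lU, hW0])
  have hl2 := log_div_pow hW1 hW13
  push_cast at hl2
  have hT2 : W * (T / W ^ 13) ≤ T :=
    (Nat.mul_le_mul_right _ (Nat.le_self_pow (by norm_num) W)).trans (Nat.mul_div_le _ _)
  have hlam0 : 0 < lam := by linarith only [hl1]
  have h50 : 0 < ρ5 := lt_of_lt_of_le (by positivity) h5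
  have hI2 := hT X v1 w1 Q n r J (T / W ^ 13) W ι (fun z => f (x1 + j • z))
    (1 + e1 / 4) ρn ρ5 (Real.exp (-Y ^ CH)) ξ (j • q.B)
    ⟨hCT, by linarith only [p2, y1, hY], yz, by linarith only [zT, zT0, p4]⟩
    (by linarith only [hn, z1, hZ]) hJ (by linarith only [hJZ, z1, hZ]) (j3.trans hRn)
    (by linarith only [hr, xH, yH, yH0]) (by linarith only [hcd, y1, hY])
    ((Real.exp_le_exp.mpr (by linarith only [zT, zT0])).trans hW)
    (by linarith only [hl2, hlT, lT, lU, hW0])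
    ((Nat.pow_le_pow_left hT2 2).trans hQ)
    (fun x => ⟨(hf _).1, (hf _).2.trans (Real.exp_le_exp.mpr (by linarith only [p2, y1, hY]))⟩)
    (by linarith only [e1p]) (by linarith only [e1l])
    (by
      refine le_trans ?_ h5
      rw [le_div_iff₀ hlam0]
      refine (mul_le_mul_of_nonneg_left hl (Real.exp_pos _).le).trans ?_
      rw [← Real.exp_add]
      exact Real.exp_le_exp.mpr (by linarith only [xH, yH, y1, hY, yH0]))
    h5n hn1' (Real.exp_le_exp.mpr (by linarith only [yH, yH0]))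
    (fun x y => by simp only [LinearMap.smul_apply]; rw [q.sym]) hS3
  have hS2 : Shr n T n (T / W ^ 13) 0 0 (13 * Real.log W + 1) :=
    Shr.of_le (Nat.div_pos hW13 (Nat.one_le_pow _ _ hW1)) (Nat.div_le_self _ _)
      (by linarith only [hl2])
  simp only [← dil_apply] at hI2
  refine (Inc.comp (dil_inj hj) hS2 hI2 le_rfl hs0 hs1 (by linarith only [hW0])).mono ?_
    (by linarith only [j3]) (by linarith only []) (by linarith only [lT, lU, hW0])
    (by linarith only [hr, xC]) ?_ (Real.exp_le_exp.mpr (by linarith only [yT]))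
  · have := min_le_right e0 (e1 / 10)
    nlinarith only [this, e1p, e1l]
  · refine le_trans ?_ hlam
    rw [div_le_iff₀ h50]
    have a1 : lam * Real.exp (X ^ CH) * (Real.exp (-X ^ CH) / lam) = 1 := by
      rw [Real.exp_neg]; field_simp
    rw [← a1]
    gcongr

theorem main_of' (hR : RG1) (hM : MID) : MAIN := by
  obtain ⟨CR, hR⟩ := hR
  obtain ⟨ε, ep, el, CH, hH⟩ := hM
  obtain ⟨c, hc⟩ : ∃ c, c = CH + CR + 100 := ⟨_, rfl⟩
  refine ⟨ε, ep, el, c * c * c * 3, ?_⟩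
  intro X Y Z Q _ n J T ι _ _ f lam κ q Ψ hP hn hJ hJZ hRn hcd hlT hQ hf hF hl1 hl hL hκ hk
  obtain ⟨p1, p2, p3, p4⟩ := hP
  have c0 : 100 ≤ c := by omega
  have c1 : c < c * c := by nlinarith
  have c2 : c * c < c * c * c := by nlinarith
  have c3 : c * c * c < c * c * c * 3 := by omega
  have hcX : (c : ℝ) ≤ X := le_trans (by exact_mod_cast (by omega : c ≤ c * c * c * 3)) p1
  have hc100 : (100 : ℝ) ≤ c := by exact_mod_cast c0
  have hX : 100 ≤ X := hc100.trans hcX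
  have hY : 100 ≤ Y := hX.trans p2
  have hZ : 100 ≤ Z := hY.trans p3
  have hX1 : 1 ≤ X := by linarith only [hX]
  have hY1 : 1 ≤ Y := by linarith only [hY]
  have hZ1 : 1 ≤ Z := by linarith only [hZ]
  have hCH : (CH : ℝ) ≤ X := le_trans (by exact_mod_cast (by omega : CH ≤ c)) hcX
  have hCR : (CR : ℝ) ≤ X := le_trans (by exact_mod_cast (by omega : CR ≤ c)) hcX
  have z1 : 10 * Z ≤ Z ^ c := by
    simpa using pw3 (x := Z) (by linarith only [hZ]) (a := 1) (b := c) (by omega)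
  have z2 : 10 * Z ^ c ≤ Z ^ (c * c) := pw3 (by linarith only [hZ]) c1
  have z3 : 10 * Z ^ (c * c) ≤ Z ^ (c * c * c) := pw3 (by linarith only [hZ]) c2
  have z4 : Z ^ (c * c * c) ≤ Real.exp X := (pw hZ1 c3.le).trans p4
  have y3 : 10 * Y ^ c ≤ Y ^ (c * c * c * 3) := pw3 (by linarith only [hY]) (by omega)
  have yz : Y ^ c ≤ Z ^ c := pw2 hY1 p3 le_rfl
  have zH : (Z ^ c) ^ CH ≤ Z ^ (c * c) := by
    rw [← pow_mul]; exact pw hZ1 (Nat.mul_le_mul_left _ (by omega))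
  have zR : (Z ^ (c * c)) ^ CR ≤ Z ^ (c * c * c) := by
    rw [← pow_mul]; exact pw hZ1 (Nat.mul_le_mul_left _ (by omega))
  have yH : Y ^ CH ≤ Y ^ c := pw hY1 (by omega)
  have yR : Y ^ CR ≤ Y ^ c := pw hY1 (by omega)
  have yH0 : 0 ≤ Y ^ CH := by positivity
  have xC : X ^ CH ≤ X ^ (c * c * c * 3) := pw hX1 (by omega)
  have hΛ3 : (Z ^ (c * c * c)) ^ 3 = Z ^ (c * c * c * 3) := by rw [← pow_mul]
  rw [← hΛ3] at hlT ⊢
  clear hΛ3 p4 p1
  generalize Z ^ (c * c * c) = w3 at *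
  generalize Z ^ (c * c) = w2 at *
  generalize Z ^ c = w1 at *
  generalize Y ^ (c * c * c * 3) = v3 at *
  generalize Y ^ c = v1 at *
  generalize X ^ (c * c * c * 3) = u3 at *
  have hw1 : 100 ≤ w1 := by linarith only [z1, hZ]
  have hw2 : 100 ≤ w2 := by linarith only [z2, hw1]
  have hw3 : 100 ≤ w3 := by linarith only [z3, hw2]
  obtain ⟨W, hWe, hWu⟩ : ∃ W : ℕ, Real.exp w3 ≤ W ∧ Real.log W ≤ 2 * w3 :=
    ⟨⌈Real.exp w3⌉₊, Nat.le_ceil _, log_ceil (by linarith only [hw3])⟩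
  have hW0 : 0 ≤ Real.log W := Real.log_natCast_nonneg W
  have hJ0 : (1 : ℝ) ≤ J := by exact_mod_cast hJ
  have hJ2 : ((2 * J : ℕ) : ℝ) = 2 * J := by push_cast; ring
  have hs0 : 0 ≤ 1 / ((2 * J : ℕ) : ℝ) := by positivity
  have hs1 : 1 / ((2 * J : ℕ) : ℝ) ≤ 1 / 2 := by
    rw [hJ2]; exact one_div_le_one_div_of_le (by norm_num) (by linarith only [hJ0])
  have hss : 1 / ((2 * J : ℕ) : ℝ) + 1 / ((2 * J : ℕ) : ℝ) = 1 / J := by
    rw [hJ2]; field_simp; norm_num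
  have j1 : (J : ℝ) * Y ^ CR ≤ J * v1 := by gcongr
  have j2 : (J : ℝ) * Y ^ CH ≤ J * v1 := by gcongr
  have j5 : (J : ℝ) * (10 * v1) ≤ J * v3 := by gcongr
  have j6 : 0 ≤ (J : ℝ) * v1 := mul_nonneg (by linarith only [hJ0]) (yH0.trans yH)
  have w33 : 100 * w3 ^ 2 ≤ w3 ^ 3 := by nlinarith only [sq_nonneg w3, hw3]
  have w30 : 0 ≤ w3 ^ 2 := sq_nonneg w3
  have zH3 : w1 ^ CH ≤ w3 := by linarith only [zH, z3, hw2]
  have lR := num4 hw3 zR hW0 hWu
  have lH := num4 hw3 zH3 hW0 hWu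
  have lR0 : 0 ≤ w2 ^ CR * Real.log W := mul_nonneg (pow_nonneg (by linarith only [hw2]) _) hW0
  obtain ⟨n1, T1, x0, P, q', K, hinj, hS, hTr, hReg, hk'⟩ :=
    hR X Y w2 Q n (2 * J) T W ⌈Real.exp (Y ^ CH)⌉₊ ι f 1 lam κ (Real.exp (-w2)) q Ψ
      ⟨hCR, p2, by linarith only [p3, z1, z2, hZ], zR.trans z4⟩ (by linarith only [hn, z1, z2, hZ])
      (by omega) (by rw [hJ2]; linarith only [hJZ, z1, z2, hZ])
      (by rw [hJ2]; linarith only [j1, j5, j6, hRn]) hcd ((Real.exp_le_exp.mpr zR).trans hWe)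
      (by linarith only [lR, w33, w30, hlT]) hQ
      (fun x => by
        have a1 := exp_add_one (a := X) (b := w2) (by linarith only [hX])
          (by linarith only [p2, p3, z1, z2, hZ])
        have a2 := Real.exp_pos X
        exact abs_le.mpr ⟨by linarith only [(hf x).1, a1, a2], by linarith only [(hf x).2, a1]⟩)
      (by linarith only [hl1]) (hl.trans (Real.exp_le_exp.mpr (by linarith only [p3, z1, z2, hZ])))
      ((Nat.ceil_lt_add_one (Real.exp_pos _).le).le.trans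
        (exp_add_one yH0 (by linarith only [yH, yz, z2, hw1])))
      ((Real.exp_le_exp.mpr (by linarith only [z1, z2, hZ])).trans hκ) le_rfl hL hk
  have hl1' := num3 hs1 hw3 hlT zR hW0 hWu hS.2.2.2.2
  have hn1 : (n : ℝ) ≤ n1 + (2 * J : ℕ) * Y ^ CR := hS.1
  rw [hJ2] at hn1
  have hn2 : (n1 : ℝ) ≤ n := by exact_mod_cast hS.2.1
  have hT1T : T1 ≤ T := hS.2.2.2.1
  have hlam : lam * Real.exp (X ^ CH) ≤ lam * Real.exp u3 := by gcongr
  have hI :=
    hH X Y w1 Q n1 (2 * J) T1 W ⌈Real.exp (Y ^ CH)⌉₊ ι (fun z => f (x0 + P z)) lam (κ / 4)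
      (Real.exp (-w2)) q' Ψ K ⟨hCH, p2, by linarith only [p3, z1, hZ], zH3.trans z4⟩
      (by linarith only [hn2, hn, z1, hZ]) (by omega)
      (by rw [hJ2]; linarith only [hJZ, z1, hZ])
      (by rw [hJ2]; linarith only [hn1, j1, j2, j5, j6, hRn]) hcd
      ((Real.exp_le_exp.mpr zH3).trans hWe) (by linarith only [lH, hl1', w30])
      ((Nat.pow_le_pow_left hT1T 2).trans hQ) (fun x => hf _) (hF.comp x0 P hinj) hl1 hl hL
      (by
        have a1 := exp_half (a := w1) (b := Z + 1) (by linarith only [z1, hZ])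
        have a2 := exp_half (a := Z + 1) (b := Z) le_rfl
        linarith only [a1, a2, hκ])
      hk' hTr (Real.exp_pos _).le (Real.exp_le_exp.mpr (by linarith only [zH])) hReg (Nat.le_ceil _)
  exact (Inc.comp hinj hS hI hs0 hs0 (by linarith only [hs1]) lR0).mono le_rfl
    (by rw [hJ2]; linarith only [j1, j2, j5, j6]) hss.le (by linarith only [lR, lH, w33, w30])
    (by linarith only [xC]) hlam (Real.exp_le_exp.mpr (by linarith only [yH, y3, yH0]))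

theorem main_of (hR : RG2) (hH : HEAD) (hT : TAIL) : MAIN :=
  main_of' (rg1_of hR) (mid_of hH hT)

end Vale.Agent.P057Z.Mn
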