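import Vale.Agent.P057Z.Mn.Sk
import Vale.Agent.P057Z.Rg.Base

/-! Regularisation of a cell from the regularisation of rectangles. -/

set_option linter.all false

open Finset
open scoped BigOperators

namespace Vale.Agent.P057Z.Mn

theorem pow_le_of_log {W T k : ℕ} (hW : 1 ≤ W) (hT : 1 ≤ T)
    (h : (k : ℝ) * Real.log W ≤ Real.log T) : W ^ k ≤ T := by
  have h1 : (0 : ℝ) < W := by exact_mod_cast hW
  have h2 : (0 : ℝ) < T := by exact_mod_cast hT
  have h3 : Real.log ((W : ℝ) ^ k) ≤ Real.log T := by rwa [Real.log_pow]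
  have := (Real.log_le_log_iff (by positivity) h2).mp h3
  exact_mod_cast this

theorem one_le_of_log {T : ℕ} (h : 0 < Real.log T) : 1 ≤ T := by
  rcases Nat.eq_zero_or_pos T with rfl | h0
  · simp at h
  · exact h0

theorem log_div_pow {W T k : ℕ} (hW : 1 ≤ W) (h : W ^ k ≤ T) :
    Real.log T - k * Real.log W - 1 ≤ Real.log (T / W ^ k : ℕ) := by
  have h1 := Rg.log_div (T := T) (S := W ^ k) (Nat.one_le_pow _ _ hW) h
  have h2 : Real.log 2 ≤ 1 := by linarith [Real.log_two_lt_d9]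
  rw [Nat.cast_pow, Real.log_pow] at h1
  linarith

theorem le_log_of_exp {a : ℝ} {W : ℕ} (h : Real.exp a ≤ W) : a ≤ Real.log W := by
  have := Real.log_le_log (Real.exp_pos a) h
  rwa [Real.log_exp] at this

theorem err1 {n Ta W T : ℕ} {Z κ : ℝ} (hW1 : 1 ≤ W) (hT1 : 1 ≤ T) (hTaT : W ^ 3 * Ta ≤ T)
    (hn : (n : ℝ) ≤ Z) (hκ : Real.exp (-Z) ≤ κ) (hW : Real.exp (10 * Z) ≤ W) :
    2 * (n : ℝ) * ((Ta + W * Ta : ℕ) : ℝ) / T * Real.exp Z ≤ κ / 2 := by
  have hκ0 : 0 < κ := (Real.exp_pos _).trans_le hκ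
  have hTp : (0 : ℝ) < T := by exact_mod_cast hT1
  have b5 : (0 : ℝ) ≤ n := Nat.cast_nonneg _
  have hZ : 0 ≤ Z := b5.trans hn
  have a1 : ((Ta + W * Ta : ℕ) : ℝ) * W ≤ 2 * T := by
    have b3 : W * Ta ≤ W ^ 3 * Ta := Nat.mul_le_mul_right _ (Nat.le_self_pow (by norm_num) W)
    have b4 : W ^ 2 * Ta ≤ W ^ 3 * Ta :=
      Nat.mul_le_mul_right _ (Nat.pow_le_pow_right hW1 (by norm_num))
    have b6 : (Ta + W * Ta) * W = W * Ta + W ^ 2 * Ta := by ring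
    have b7 : (Ta + W * Ta) * W ≤ 2 * T := by omega
    exact_mod_cast b7
  have b3 := Real.exp_pos Z
  have a2 : 8 * Z * Real.exp Z * Real.exp Z ≤ W := by
    have b1 : 8 * Z ≤ Real.exp (8 * Z) := by linarith [Real.add_one_le_exp (8 * Z)]
    have b2 : Real.exp (8 * Z) * Real.exp Z * Real.exp Z ≤ W := by
      rw [← Real.exp_add, ← Real.exp_add]
      exact (Real.exp_le_exp.mpr (by linarith)).trans hW
    exact le_trans (by gcongr) b2
  have a3 : 1 ≤ κ * Real.exp Z := by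
    have := mul_le_mul_of_nonneg_right hκ (Real.exp_pos Z).le
    rwa [← Real.exp_add, neg_add_cancel, Real.exp_zero] at this
  have b4 : (0 : ℝ) ≤ ((Ta + W * Ta : ℕ) : ℝ) := Nat.cast_nonneg _
  rw [div_mul_eq_mul_div, div_le_iff₀ hTp]
  generalize ((Ta + W * Ta : ℕ) : ℝ) = t at a1 b4 ⊢
  calc 2 * (n : ℝ) * t * Real.exp Z ≤ 2 * Z * t * Real.exp Z * 1 := by
        rw [mul_one]; gcongr
    _ ≤ 2 * Z * t * Real.exp Z * (κ * Real.exp Z) := by gcongr
    _ = (8 * Z * Real.exp Z * Real.exp Z) * t * κ / 4 := by ring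
    _ ≤ W * t * κ / 4 := by gcongr
    _ = t * W * κ / 4 := by ring
    _ ≤ 2 * T * κ / 4 := by gcongr
    _ = κ / 2 * T := by ring

theorem num1 {s lT lW la lb lc A B : ℝ} (s0 : 0 ≤ s) (s1 : s ≤ 1) (hW : 100 ≤ lW) (hA : 1 ≤ A)
    (hB : 100 * A ≤ B) (h1 : lT - 3 * lW - 1 ≤ la) (h2 : (1 - s) * la - A * lW ≤ lb)
    (h3 : lb ≤ lc) : (1 - s) * lT - B * lW ≤ lc := by
  have a4 : (1 - s) * (lT - 3 * lW - 1) ≤ (1 - s) * la :=
    mul_le_mul_of_nonneg_left h1 (by linarith)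
  have a5 : 100 * A * lW ≤ B * lW := mul_le_mul_of_nonneg_right hB (by linarith)
  have a6 : 0 ≤ s * (3 * lW + 1) := by positivity
  have a7 : 1 * lW ≤ A * lW := mul_le_mul_of_nonneg_right hA (by linarith)
  nlinarith

theorem num2 {lT lW la A : ℝ} (hW : 100 ≤ lW) (hA : 1 ≤ A) (hT : 100 * A * lW ≤ lT)
    (h1 : lT - 3 * lW - 1 ≤ la) : A * lW ≤ la := by
  have a7 : 1 * lW ≤ A * lW := mul_le_mul_of_nonneg_right hA (by linarith)
  nlinarith

theorem exp_half {a b : ℝ} (h : b + 1 ≤ a) : Real.exp (-a) ≤ Real.exp (-b) / 2 := by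
  have b1 : (2 : ℝ) ≤ Real.exp 1 := by linarith [Real.add_one_le_exp (1 : ℝ)]
  have b2 : Real.exp (-a) * Real.exp 1 ≤ Real.exp (-b) := by
    rw [← Real.exp_add]; exact Real.exp_le_exp.mpr (by linarith)
  nlinarith [Real.exp_pos (-a)]

theorem rg1_of (h : RG2) : RG1 := by
  obtain ⟨C2, h⟩ := h
  refine ⟨2 * C2 + 10, ?_⟩
  intro X Y Z Q _ n J T W K0 ι _ _ f θ lam κ δ q Ψ hP hn hJ hJZ hR hc hW hT hQ hf hl0 hl hK hκ hδ
    hL hk
  obtain ⟨p1, p2, p3, p4⟩ := hP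
  have hC : (10 : ℝ) ≤ ((2 * C2 + 10 : ℕ) : ℝ) := by
    push_cast; have : (0 : ℝ) ≤ C2 := Nat.cast_nonneg _; linarith
  have hC2 : (C2 : ℝ) ≤ ((2 * C2 + 10 : ℕ) : ℝ) := by
    push_cast; have : (0 : ℝ) ≤ C2 := Nat.cast_nonneg _; linarith
  have hY : 10 ≤ Y := by linarith
  have hZ : 10 ≤ Z := by linarith
  have hZZ : 10 * Z ≤ Z ^ 2 := by nlinarith
  have hA1 : 1 ≤ (Z ^ 2) ^ C2 := one_le_pow₀ (by nlinarith)
  have hZC : Z ^ (2 * C2 + 10) = (Z ^ 2) ^ C2 * Z ^ 10 := by rw [pow_add, pow_mul]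
  have hZ10 : Z ^ 2 ≤ Z ^ 10 := pow_le_pow_right₀ (by linarith) (by norm_num)
  have hB : 100 * (Z ^ 2) ^ C2 ≤ Z ^ (2 * C2 + 10) := by rw [hZC]; nlinarith
  have hB2 : Z ^ 2 ≤ Z ^ (2 * C2 + 10) := pow_le_pow_right₀ (by linarith) (by omega)
  have hlW := le_log_of_exp hW
  have hlW1 : 100 ≤ Real.log W := by linarith
  have hW1 : 1 ≤ W := one_le_of_log (by linarith)
  have hlT : 100 * (Z ^ 2) ^ C2 * Real.log W ≤ Real.log T :=
    (mul_le_mul_of_nonneg_right hB (by linarith)).trans hT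
  have hT1 : 1 ≤ T := one_le_of_log (by nlinarith)
  have hW3 : W ^ 3 ≤ T := pow_le_of_log hW1 hT1 (by push_cast; nlinarith)
  have hlTa := log_div_pow hW1 hW3
  set Ta := T / W ^ 3 with hTa
  have hTa1 : 1 ≤ Ta := Nat.div_pos hW3 (Nat.one_le_pow _ _ hW1)
  have hTaT : W ^ 3 * Ta ≤ T := Nat.mul_div_le _ _
  have hWTa : W * Ta ≤ T := le_trans (Nat.mul_le_mul_right _ (Nat.le_self_pow (by norm_num) W)) hTaT
  have hTQ : T ≤ Q := le_trans (Nat.le_self_pow (by norm_num) T) hQ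
  have hQ2 : 2 < Q := by
    have h2 : (2 : ℝ) < W := by
      have := Real.add_one_le_exp (Z ^ (2 * C2 + 10)); nlinarith
    have h3 : 2 < W := by exact_mod_cast h2
    have : W ≤ T := le_trans (Nat.le_self_pow (by norm_num) W) hW3
    omega
  have hκ0 : 0 < κ := (Real.exp_pos _).trans_le hκ
  -- localisation
  have hne : (bx Q n Ta ×ˢ bx Q n (W * Ta)).Nonempty :=
    (Rg.bx_ne hTa1).product (Rg.bx_ne (Nat.mul_pos hW1 hTa1))
  obtain ⟨x0, hx0⟩ := Rg.sub1 (s := bx Q n Ta ×ˢ bx Q n (W * Ta)) hne (T := T) (t := Ta + W * Ta)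
    (g := fun x => Ψ (q.ev x) * (f x - θ)) (M := Real.exp Z) (p := fun a => a.1 + a.2)
    (fun x => by
      rw [abs_mul, abs_of_pos (hL.pos _)]
      exact (mul_le_of_le_one_left (abs_nonneg _) (hL.le_one _)).trans (hf x))
    (fun a ha => Rg.near_add (Rg.near_bx (mem_product.mp ha).1) (Rg.near_bx (mem_product.mp ha).2))
    hT1 hTQ
  have herr : 2 * (n : ℝ) * ((Ta + W * Ta : ℕ) : ℝ) / T * Real.exp Z ≤ κ / 2 :=
    err1 hW1 hT1 hTaT hn hκ ((Real.exp_le_exp.mpr (by linarith)).trans hW)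
  have hRQ : κ / 2 ≤ RQ (fun z => f (x0 + (LinearMap.id : V Q n →ₗ[ZMod Q] V Q n) z)) θ Ta W
      (q.comp x0 LinearMap.id) Ψ (fun _ => 1) (fun _ => 1) := by
    unfold RQ
    rw [expect_product] at hx0
    simp only [Quad.ev_comp hQ2, LinearMap.id_apply, one_mul]
    linarith
  have hZ2 : Z ≤ Z ^ 2 := by linarith
  have he : Real.exp Z ≤ Real.exp (Z ^ 2) := Real.exp_le_exp.mpr hZ2
  have hJ0 : (0 : ℝ) < J := by exact_mod_cast hJ
  have hYC : Y ^ C2 ≤ Y ^ (2 * C2 + 10) := pow_le_pow_right₀ (by linarith) (by omega)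
  obtain ⟨n', T', a0, b0, P, q', K, hinj, hS, hTr, hReg, hk'⟩ :=
    h X Y (Z ^ 2) Q n J Ta W K0 ι (fun z => f (x0 + (LinearMap.id : V Q n →ₗ[ZMod Q] V Q n) z))
      θ lam (κ / 2) δ (q.comp x0 LinearMap.id) Ψ (fun _ => 1) (fun _ => 1)
      ⟨by linarith, p2, by linarith, by linarith⟩ (by linarith) hJ (by linarith)
      ((mul_le_mul_of_nonneg_left hYC hJ0.le).trans hR) hc
      ((Real.exp_le_exp.mpr (by linarith)).trans hW) (num2 hlW1 hA1 hlT (by exact_mod_cast hlTa))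
      (le_trans (Nat.pow_le_pow_left hWTa 2) hQ) (fun x => (hf _).trans he) hl0 (hl.trans he)
      (hK.trans he)
      ((exp_half (b := Z) (by linarith)).trans (by linarith))
      ((Real.exp_le_exp.mpr (by linarith)).trans hδ) hL (fun _ => ⟨zero_le_one, le_rfl⟩)
      (fun _ => ⟨zero_le_one, le_rfl⟩) hRQ
  obtain ⟨s1, s2, s3, s4, s5⟩ := hS
  unfold RQ at hk'
  obtain ⟨a, -, ha⟩ := exists_le_of_le_expect (Rg.bx_ne s3) hk'
  refine ⟨n', W * T', x0 + (a0 + b0 + P a), P, q'.comp a LinearMap.id, K, hinj, ?_,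
    hTr.comp _ _, ?_, ?_⟩
  · refine ⟨?_, s2, Nat.mul_pos hW1 s3, (Nat.mul_le_mul_left W s4).trans hWTa, ?_⟩
    · have := mul_le_mul_of_nonneg_left hYC hJ0.le
      linarith
    · have a1 : Real.log T' ≤ Real.log (W * T' : ℕ) :=
        Real.log_le_log (by exact_mod_cast s3) (by exact_mod_cast Nat.le_mul_of_pos_left T' hW1)
      have a2 : 1 / (J : ℝ) ≤ 1 := by
        rw [div_le_one hJ0]; exact_mod_cast hJ
      exact num1 (by positivity) a2 hlW1 hA1 hB (by exact_mod_cast hlTa) s5 a1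
  · have e : (q'.comp a LinearMap.id).B = q'.B := by
      ext x y; rfl
    rw [e]
    exact hReg.mono le_rfl le_rfl (Nat.div_le_div_right (Nat.le_mul_of_pos_left T' hW1)) le_rfl
  · have e : κ / 4 = κ / 2 / 2 := by ring
    rw [e]
    refine ha.trans (le_of_eq (expect_congr rfl fun b _ => ?_))
    simp only [Quad.ev_comp hQ2, LinearMap.id_apply, one_mul, map_add, add_assoc]

end Vale.Agent.P057Z.Mn
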