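import Vale.Agent.P057Z.Bas0

/-! The three parts of the increment step. -/

set_option linter.all false

open Finset
open scoped BigOperators

namespace Vale.Agent.P057Z.Mn

noncomputable section

/-- regularisation of a cell -/
def RG1 : Prop :=
  ∃ C : ℕ, ∀ (X Y Z : ℝ) (Q : ℕ) [Fact Q.Prime] (n J T W K0 : ℕ)
    (ι : Type) [Fintype ι] [DecidableEq ι] (f : V Q n → ℝ) (θ lam κ δ : ℝ) (q : Quad Q n ι)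
    (Ψ : (ι → ZMod Q) → ℝ),
    Par C X Y Z → (n : ℝ) ≤ Z → 1 ≤ J → (J : ℝ) ≤ Z → J * Y ^ C ≤ n → (Fintype.card ι : ℝ) ≤ Y →
    Real.exp (Z ^ C) ≤ W → Z ^ C * Real.log W ≤ Real.log T → T ^ 2 ≤ Q →
    (∀ x, |f x - θ| ≤ Real.exp Z) → 0 ≤ lam → lam ≤ Real.exp Z → (K0 : ℝ) ≤ Real.exp Z →
    Real.exp (-Z) ≤ κ → Real.exp (-Z) ≤ δ → LL lam Ψ →
    κ ≤ 𝔼 x ∈ bx Q n T, Ψ (q.ev x) * (f x - θ) →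
    ∃ (n' T' : ℕ) (x0 : V Q n) (P : V Q n' →ₗ[ZMod Q] V Q n) (q' : Quad Q n' ι)
      (K : Submodule (ZMod Q) (ι → ZMod Q)), Function.Injective P ∧
      Shr n T n' T' (J * Y ^ C) (1 / J) (Z ^ C * Real.log W) ∧ Triv q' K ∧
      Reg q'.B K K0 δ (T' / W ^ 20) T' ∧
      κ / 4 ≤ 𝔼 x ∈ bx Q n' T', Ψ (q'.ev x) * (f (x0 + P x) - θ)

/-- from a regular cell without increment to frequencies depending on h -/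
def HEAD : Prop :=
  ∃ e1 : ℝ, 0 < e1 ∧ e1 ≤ 1 ∧ ∃ e0 : ℝ, 0 < e0 ∧ e0 ≤ 1 / 100 ∧ ∃ C : ℕ, ∀ (X Y Z : ℝ) (Q : ℕ)
    [Fact Q.Prime] (n J T W K1 : ℕ) (ι : Type) [Fintype ι] [DecidableEq ι] (f : V Q n → ℝ)
    (lam κ δ : ℝ) (q : Quad Q n ι) (Ψ : (ι → ZMod Q) → ℝ)
    (K : Submodule (ZMod Q) (ι → ZMod Q)),
    Par C X Y Z → (n : ℝ) ≤ Z → 1 ≤ J → (J : ℝ) ≤ Z → J * Y ^ C ≤ n → (Fintype.card ι : ℝ) ≤ Y →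
    Real.exp (Z ^ C) ≤ W → Z ^ C * Real.log W ≤ Real.log T → T ^ 2 ≤ Q →
    (∀ x, 0 ≤ f x ∧ f x ≤ Real.exp X) → Free f → 1 ≤ lam → lam ≤ Real.exp Y → LL lam Ψ →
    Real.exp (-Z) ≤ κ → κ ≤ 𝔼 x ∈ bx Q n T, Ψ (q.ev x) * (f x - 1) →
    Triv q K → 0 ≤ δ → δ ≤ Real.exp (-Z ^ C) → Reg q.B K K1 δ (T / W ^ 20) T →
    Real.exp (Y ^ C) ≤ K1 →
    ¬ Inc f (1 + e0) T (J * Y ^ C) (1 / J) (Z ^ C * Real.log W) (Fintype.card ι)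
      (lam * Real.exp (X ^ C)) (Real.exp (-Y ^ C)) →
    ∃ (x1 : V Q n) (j : ℤ) (r : ℕ) (ξ : V Q n → Fin r → V Q n) (ρn ρ5 : ℝ), (j : ZMod Q) ≠ 0 ∧
      (r : ℝ) ≤ X ^ C ∧ Real.exp (-X ^ C) / lam ≤ ρ5 ∧ ρ5 ≤ ρn ∧ ρn ≤ 1 ∧
      S3 (fun z => f (x1 + j • z)) (1 + e1 / 4) (T / W ^ 13) W ξ (j • q.B) ρn ρ5
        (Real.exp (-Y ^ C))

/-- from frequencies depending on h to a cell -/
def TAIL : Prop :=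
  ∀ ε : ℝ, 0 < ε → ε ≤ 1 / 100 → ∃ C : ℕ, ∀ (X Y Z : ℝ) (Q : ℕ) [Fact Q.Prime] (n r J T W : ℕ)
    (ι : Type) [Fintype ι] [DecidableEq ι] (f : V Q n → ℝ) (θ ρn ρ5 κ : ℝ)
    (ξ : V Q n → Fin r → V Q n) (B : Bil Q n ι),
    Par C X Y Z → (n : ℝ) ≤ Z → 1 ≤ J → (J : ℝ) ≤ Z → J * Y ^ C ≤ n → (r : ℝ) ≤ Y →
    (Fintype.card ι : ℝ) ≤ Y → Real.exp (Z ^ C) ≤ W → Z ^ C * Real.log W ≤ Real.log T →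
    (W * T) ^ 2 ≤ Q → (∀ x, 0 ≤ f x ∧ f x ≤ Real.exp Y) → 1 ≤ θ → θ ≤ 2 →
    Real.exp (-Y) ≤ ρ5 → ρ5 ≤ ρn → ρn ≤ 1 → Real.exp (-Y) ≤ κ → (∀ x y, B x y = B y x) →
    S3 f θ T W ξ B ρn ρ5 κ →
    Inc f ((1 - ε) * θ) T (J * Y ^ C) (1 / J) (Z ^ C * Real.log W) (r + Fintype.card ι) (1 / ρ5)
      (Real.exp (-Y ^ C))

end

end Vale.Agent.P057Z.Mn
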