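import Vale.Agent.P057Z.Mn.Sk

/-! From frequencies depending on h to a cell: the bookkeeping. -/

open Finset
open scoped BigOperators

namespace Vale.Agent.P057Z.Mn

noncomputable section

namespace Tail

theorem pw {a b : ℝ} {k c : ℕ} (h1 : 1 ≤ a) (h2 : a ≤ b) (h3 : k ≤ c) : a ^ k ≤ b ^ c :=
  (pow_le_pow_right₀ h1 h3).trans (pow_le_pow_left₀ (by linarith) h2 c)

theorem pw1 {a : ℝ} {k c : ℕ} (h1 : 10 ≤ a) (h3 : k + 1 ≤ c) : 10 * a ^ k ≤ a ^ c := by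
  refine le_trans ?_ (pow_le_pow_right₀ (by linarith) h3)
  rw [pow_succ, mul_comm]
  exact mul_le_mul_of_nonneg_left h1 (by positivity)

theorem nums {c : ℕ} (hc : 10 ≤ c) {Y Z : ℝ} (hY : 10 ≤ Y) (hZ : Y ≤ Z) :
    ∃ Y4 Y6 Z1 Z2 : ℝ, Y ^ c ≤ Y4 ∧ 2 * Y ≤ Y4 ∧ Y4 + Y4 ^ c + 3 ≤ Y6 ∧ Y4 ≤ Y6 ∧ Y6 ≤ Z1 ∧
      4 * Z ≤ Z1 ∧ Z1 ^ c ≤ Z2 ∧ Z1 ≤ Z2 ∧ Y6 ^ c + 1 ≤ Z2 ∧
      16 * Y6 ^ c ≤ Y ^ ((c * (c + 1) + 1) * c * c + 2) ∧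
      8 * Z2 ^ c ≤ Z ^ ((c * (c + 1) + 1) * c * c + 2) := by
  have a1 : 10 * Y ^ 1 ≤ Y ^ c := pw1 hY (by omega)
  rw [pow_one] at a1
  have a2 : 10 * (Y ^ c) ^ c ≤ (Y ^ c) ^ (c + 1) := pw1 (by linarith) le_rfl
  have a3 : (Y ^ c) ^ 1 ≤ (Y ^ c) ^ c := pw (by linarith) le_rfl (by omega)
  rw [pow_one] at a3
  have a4 : (Y ^ c) ^ (c + 1) ≤ Z ^ (c * (c + 1)) := by
    rw [← pow_mul]
    exact pw (by linarith) hZ le_rfl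
  have a5 : 10 * Z ^ (c * (c + 1)) ≤ Z ^ (c * (c + 1) + 1) := pw1 (by linarith) le_rfl
  have a6 : Z ^ 1 ≤ Z ^ (c * (c + 1)) := pw (by linarith) le_rfl (by nlinarith)
  rw [pow_one] at a6
  have a7 : (Z ^ (c * (c + 1) + 1)) ^ 1 ≤ (Z ^ (c * (c + 1) + 1)) ^ c :=
    pw (by linarith) le_rfl (by omega)
  rw [pow_one] at a7
  have a8 : (10 * (Y ^ c) ^ (c + 1)) ^ c ≤ (Z ^ (c * (c + 1) + 1)) ^ c :=
    pw (by linarith) (by linarith) le_rfl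
  have a9 : (10 : ℝ) ^ 1 ≤ 10 ^ c := pw (by norm_num) le_rfl (by omega)
  have b1 : 1 ≤ ((Y ^ c) ^ (c + 1)) ^ c := one_le_pow₀ (by linarith)
  have b2 : ∀ {a : ℝ} {k m : ℕ}, 10 ≤ a → k ≤ m → 100 * a ^ k ≤ a ^ (m + 2) := fun {a k m} h e => by
    have h1 : 10 * a ^ k ≤ a ^ (m + 1) := pw1 h (by omega)
    have h2 : 10 * a ^ (m + 1) ≤ a ^ (m + 2) := pw1 h le_rfl
    linarith
  have b3 := b2 (k := c * (c + 1) * c) (m := (c * (c + 1) + 1) * c * c) hY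
    ((Nat.mul_le_mul_right c (Nat.le_succ _)).trans (Nat.le_mul_of_pos_right _ (by omega)))
  have b4 := b2 (k := (c * (c + 1) + 1) * c * c) (hY.trans hZ) le_rfl
  rw [mul_pow] at a8
  refine ⟨Y ^ c, (Y ^ c) ^ (c + 1), Z ^ (c * (c + 1) + 1), (Z ^ (c * (c + 1) + 1)) ^ c, le_rfl,
    by linarith, by linarith, by linarith, by linarith, by linarith, le_rfl, a7, by nlinarith, ?_, ?_⟩
  · rw [← pow_mul, ← pow_mul, ← mul_assoc] at b1 ⊢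
    linarith
  · have : 0 ≤ Z ^ ((c * (c + 1) + 1) * c * c) := pow_nonneg (by linarith) _
    rw [← pow_mul, ← pow_mul, ← mul_assoc]
    linarith

theorem ok {n T n' T' W Q : ℕ} {R Λ R' s' Λ' Z : ℝ} (h : Shr n T n' T' R' s' Λ') (h1 : R' ≤ 2 * R)
    (h2 : s' ≤ 1 / 2) (h3 : Λ' ≤ 3 * Λ) (h4 : 3 * R ≤ n) (h5 : 8 * Λ ≤ Real.log T)
    (h6 : (n : ℝ) ≤ Z) (h7 : (W * T) ^ 2 ≤ Q) :
    (n' : ℝ) ≤ Z ∧ R ≤ n' ∧ Λ ≤ Real.log T' ∧ (W * T') ^ 2 ≤ Q := by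
  obtain ⟨a, b, -, d, e⟩ := h
  have : 0 ≤ Real.log T := Real.log_natCast_nonneg T
  refine ⟨le_trans (by exact_mod_cast b) h6, by linarith, by nlinarith, le_trans ?_ h7⟩
  exact Nat.pow_le_pow_left (Nat.mul_le_mul_left W d) 2

/-- the numbers of the four steps -/
structure Nm (c C J W : ℕ) (X Y Z Y4 Y6 Z1 Z2 R Λ s : ℝ) : Prop where
  cY : (c : ℝ) ≤ Y4
  y2 : Y + Y ≤ Y4
  y4 : Y ≤ Y4
  y6 : Y4 ≤ Y6
  z1 : Y6 ≤ Z1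
  z : Z ≤ Z1
  z2 : Z1 ≤ Z2
  two : 2 ≤ Real.exp Z2
  par : ∀ {k : ℕ} {Y' Z' : ℝ}, k ≤ c → Y ≤ Y' → Y' ≤ Z' → Z' ≤ Z2 →
    Par k X Y' Z' ∧ Real.exp (Z' ^ k) ≤ W ∧ Z' ^ k * Real.log W ≤ Λ
  rk : ∀ {k : ℕ} {Y' : ℝ}, k ≤ c → Y ≤ Y' → Y' ≤ Y6 → ((4 * J : ℕ) : ℝ) * Y' ^ k ≤ R
  j1 : ((4 * J : ℕ) : ℝ) ≤ Z1
  r0 : 0 ≤ R
  l0 : 0 ≤ Λ
  s0 : 0 ≤ s
  se : s = 1 / ((4 * J : ℕ) : ℝ)
  rr : 4 * R ≤ J * Y ^ C
  ll : 8 * Λ ≤ Z ^ C * Real.log W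
  ss : 4 * s = 1 / J
  s1 : 4 * s ≤ 1
  k1 : ∀ {k : ℕ}, k ≤ c → Real.exp (-Y4) ≤ Real.exp (-Y ^ k)
  k2 : ∀ {k k' : ℕ}, k ≤ c → k' ≤ c →
    Real.exp (-Y6) ≤ Real.exp (-Y ^ k) / 4 * Real.exp (-Y4 ^ k') / 2
  k4 : ∀ {k : ℕ}, k ≤ c → (⌈Real.exp (Y6 ^ k)⌉₊ : ℝ) ≤ Real.exp Z2
  k5 : ∀ {k : ℕ}, k ≤ c → Real.exp (-Z2) ≤ Real.exp (-Z1 ^ k)
  k6 : ∀ {k : ℕ}, k ≤ c → Real.exp (-Y ^ C) ≤ Real.exp (-Y6 ^ k)
  w2 : 2 ≤ W

theorem exp3 : Real.exp (-3) ≤ 1 / 8 := by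
  have h6 : (2 : ℝ) ^ 3 ≤ Real.exp 1 ^ 3 :=
    pow_le_pow_left₀ (by norm_num) (by linarith [Real.add_one_le_exp 1]) 3
  rw [← Real.exp_nat_mul] at h6
  rw [Real.exp_neg, one_div]
  exact inv_anti₀ (by norm_num) (by norm_num at h6 ⊢; exact h6)

theorem ceil_exp {a b : ℝ} (h0 : 0 ≤ a) (h : a + 1 ≤ b) : (⌈Real.exp a⌉₊ : ℝ) ≤ Real.exp b := by
  have h5 : 1 ≤ Real.exp a := Real.one_le_exp h0
  have h6 : Real.exp (a + 1) ≤ Real.exp b := Real.exp_le_exp.2 h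
  rw [Real.exp_add] at h6
  have h7 := Nat.ceil_lt_add_one (Real.exp_pos a).le
  nlinarith [Real.add_one_le_exp 1]

theorem setup {c J W : ℕ} {X Y Z : ℝ} (c0 : 10 ≤ c)
    (hP : Par ((c * (c + 1) + 1) * c * c + 2) X Y Z) (hJ : 1 ≤ J) (hJZ : (J : ℝ) ≤ Z)
    (hW : Real.exp (Z ^ ((c * (c + 1) + 1) * c * c + 2)) ≤ W) :
    ∃ Y4 Y6 Z1 Z2 R Λ s, Nm c ((c * (c + 1) + 1) * c * c + 2) J W X Y Z Y4 Y6 Z1 Z2 R Λ s := by
  obtain ⟨p1, p2, p3, p4⟩ := hP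
  have hcX : (c : ℝ) ≤ X := le_trans (by
    exact_mod_cast (Nat.le_mul_of_pos_left c (by positivity)).trans (Nat.le_add_right _ 2)) p1
  have hX : 10 ≤ X := le_trans (by exact_mod_cast c0) hcX
  obtain ⟨Y4, Y6, Z1, Z2, q1, q2, q3, q4, q5, q6, q7, q8, q9, q10, q11⟩ :=
    nums c0 (hX.trans p2) p3
  generalize (c * (c + 1) + 1) * c * c + 2 = C at *
  have hJ' : (1 : ℝ) ≤ J := by exact_mod_cast hJ
  have hz : 1 ≤ Z2 ^ c := one_le_pow₀ (by linarith)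
  have hy : 1 ≤ Y6 ^ c := one_le_pow₀ (by linarith)
  have hlw0 : 0 ≤ Real.log W := Real.log_natCast_nonneg W
  have hss : 4 * (1 / ((4 * J : ℕ) : ℝ)) = 1 / J := by
    push_cast
    field_simp
  have y1 : 1 ≤ Y := by linarith
  have y4 : 1 ≤ Y4 := by linarith
  have y6 : 1 ≤ Y6 := by linarith
  refine ⟨Y4, Y6, Z1, Z2, ((4 * J : ℕ) : ℝ) * Y6 ^ c, Z2 ^ c * Real.log W, 1 / ((4 * J : ℕ) : ℝ),
    by linarith, by linarith, by linarith, q4, q5, by linarith, q8,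
    by linarith [Real.add_one_le_exp Z2], fun {k Y' Z'} a b d e => ?_,
    fun a b d => mul_le_mul_of_nonneg_left (pw (y1.trans b) d a) (by positivity),
    by push_cast; linarith, by positivity, by positivity, by positivity, rfl, ?_, ?_, hss,
    hss ▸ div_le_one_of_le₀ hJ' (by positivity),
    fun a => Real.exp_le_exp.2 (neg_le_neg ((pw y1 le_rfl a).trans q1)), fun {k k'} a b => ?_,
    fun a => ceil_exp (by positivity) (le_trans (by linarith only [pw y6 le_rfl a]) q9),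
    fun a => Real.exp_le_exp.2 (neg_le_neg ((pw (y6.trans q5) le_rfl a).trans q7)),
    fun a => Real.exp_le_exp.2 (by linarith only [pw y6 le_rfl a, q10, hy]), ?_⟩
  · have h : Z' ^ k ≤ Z2 ^ c := pw ((y1.trans b).trans d) e a
    have h' : Z' ^ k ≤ Z ^ C := by linarith only [h, hz, q11]
    exact ⟨⟨le_trans (by exact_mod_cast a) hcX, p2.trans b, d, h'.trans p4⟩,
      (Real.exp_le_exp.2 h').trans hW, mul_le_mul_of_nonneg_right h hlw0⟩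
  · have := mul_le_mul_of_nonneg_left q10 (Nat.cast_nonneg (α := ℝ) J)
    push_cast
    linarith only [this]
  · have := mul_le_mul_of_nonneg_right q11 hlw0
    linarith only [this]
  · have h3 : Real.exp (-Y4) ≤ Real.exp (-Y ^ k) :=
      Real.exp_le_exp.2 (neg_le_neg ((pw y1 le_rfl a).trans q1))
    have h4 : Real.exp (-Y4 ^ c) ≤ Real.exp (-Y4 ^ k') :=
      Real.exp_le_exp.2 (neg_le_neg (pw y4 le_rfl b))
    have h5 := exp3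
    calc Real.exp (-Y6) ≤ Real.exp (-Y4 + -Y4 ^ c + -3) :=
          Real.exp_le_exp.2 (by linarith only [q3])
      _ = Real.exp (-Y4) * Real.exp (-Y4 ^ c) * Real.exp (-3) := by rw [Real.exp_add, Real.exp_add]
      _ ≤ Real.exp (-Y ^ k) * Real.exp (-Y4 ^ k') * (1 / 8) := by gcongr
      _ = _ := by ring
  · have h4 : (2 : ℝ) ≤ W :=
      le_trans (by linarith only [Real.add_one_le_exp (Z ^ C), hz, q11]) hW
    exact_mod_cast h4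

theorem theta {ε θ : ℝ} (h0 : 0 < ε) (h1 : ε ≤ 1 / 100) (t1 : 1 ≤ θ) (t2 : θ ≤ 2) {t : ℝ}
    (ht : t = 1 - ε / 4) : (0 ≤ t * θ ∧ t * θ ≤ 2) ∧ 0 ≤ t * (t * θ) ∧
      (1 / 2 ≤ t * (t * (t * θ)) ∧ t * (t * (t * θ)) ≤ 2) ∧
      (1 - ε) * θ ≤ t * (t * (t * (t * θ))) := by
  have u1 : 0.99 ≤ t := by linarith
  have u2 : t ≤ 1 := by linarith
  have u3 : 1 - ε ≤ t ^ 4 := by
    have := one_add_mul_le_pow (a := -(ε / 4)) (by linarith) 4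
    rw [ht]
    push_cast at this
    rw [sub_eq_add_neg 1 (ε / 4)]
    linarith
  have v1 : 0.99 ≤ t * θ ∧ t * θ ≤ 2 := ⟨by nlinarith, by nlinarith⟩
  have v2 : 0.98 ≤ t * (t * θ) ∧ t * (t * θ) ≤ 2 := ⟨by nlinarith, by nlinarith⟩
  have v3 : 0.97 ≤ t * (t * (t * θ)) ∧ t * (t * (t * θ)) ≤ 2 := ⟨by nlinarith, by nlinarith⟩
  have := mul_le_mul_of_nonneg_right u3 (zero_le_one.trans t1)
  exact ⟨⟨by linarith, v1.2⟩, by linarith, ⟨by linarith, v3.2⟩, by linarith⟩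

theorem inv_le {ρ Y Y' : ℝ} (r1 : Real.exp (-Y) ≤ ρ) (h : Y ≤ Y') : 1 / ρ ≤ Real.exp Y' := by
  refine le_trans ?_ (Real.exp_le_exp.2 h)
  rw [div_le_iff₀ ((Real.exp_pos _).trans_le r1), ← div_le_iff₀' (Real.exp_pos _), one_div,
    ← Real.exp_neg]
  exact r1

theorem ab {a b E : ℝ} (h : 0 ≤ a ∧ a ≤ E) (h' : 1 / 2 ≤ b ∧ b ≤ 2) (h2 : 2 ≤ E) : |a - b| ≤ E :=
  abs_le.2 ⟨by linarith [h.1, h'.2], by linarith [h.2, h'.1]⟩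

theorem two_lt {W T Q : ℕ} (h : 2 ≤ W) (h1 : 1 ≤ T) (h2 : (W * T) ^ 2 ≤ Q) : 2 < Q := by
  have h6 : 2 * 1 ≤ W * T := Nat.mul_le_mul h h1
  nlinarith

end Tail

open Tail in
theorem tail_of (hD : DROP) (hS : SY) (hC : CELL) (hR : RG2) (hF : FIN) : TAIL := by
  intro ε h0 h1
  have e0 : 0 < ε / 4 := by linarith
  have e1 : ε / 4 ≤ 1 / 100 := by linarith
  obtain ⟨CD, hD⟩ := hD _ e0 e1
  obtain ⟨CS, hS⟩ := hS _ e0 e1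
  obtain ⟨CC, hC⟩ := hC _ e0 e1
  obtain ⟨CR, hR⟩ := hR
  obtain ⟨CF, hF⟩ := hF _ e0 e1
  obtain ⟨c, c0, cD, cS, cC, cR, cF⟩ : ∃ c : ℕ, 10 ≤ c ∧ CD ≤ c ∧ CS ≤ c ∧ CC ≤ c ∧ CR ≤ c ∧
    CF ≤ c := ⟨10 + CD + CS + CC + CR + CF, by omega, by omega, by omega, by omega, by omega,
      by omega⟩
  refine ⟨(c * (c + 1) + 1) * c * c + 2, ?_⟩
  intro X Y Z Q _ n r J T W ι _ _ f θ ρn ρ5 κ ξ B hP hn hJ hJZ hJn hr hι hW hT hQ hf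
    t1 t2 r1 r2 r3 hκ hB h3
  obtain ⟨Y4, Y6, Z1, Z2, R, Λ, s, N⟩ := setup c0 hP hJ hJZ hW
  generalize (c * (c + 1) + 1) * c * c + 2 = C at *
  obtain ⟨v1, v2, v3, v4⟩ := theta h0 h1 t1 t2 rfl
  have hJ4 : 1 ≤ 4 * J := by omega
  have hl0 : 0 ≤ 1 / ρ5 := le_of_lt (one_div_pos.2 ((Real.exp_pos _).trans_le r1))
  have hf' : ∀ {Y' : ℝ}, Y ≤ Y' → ∀ x, 0 ≤ f x ∧ f x ≤ Real.exp Y' := fun h x =>
    ⟨(hf x).1, (hf x).2.trans (Real.exp_le_exp.2 h)⟩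
  have hcard : (Fintype.card (Fin r ⊕ ι) : ℝ) = r + Fintype.card ι := by simp
  have hca : (Fintype.card (Fin r ⊕ ι) : ℝ) ≤ Y4 := hcard.trans_le ((add_le_add hr hι).trans N.y2)
  have r0 := N.r0
  have l0 := N.l0
  have s0 := N.s0
  have s4 := N.s1
  have y6 := N.y4.trans N.y6
  have z1 := y6.trans N.z1
  have z2 := z1.trans N.z2
  have hRn : 3 * R ≤ n := by linarith only [N.rr, hJn, r0]
  have okk := fun {n' T' : ℕ} {R' s' Λ' : ℝ} (h : Shr n T n' T' R' s' Λ') a b d =>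
    ok (R := R) (Λ := Λ) h a b d hRn (N.ll.trans hT) hn hQ
  -- first step
  obtain ⟨d1, d2, d3⟩ := N.par cD le_rfl z1 N.z2
  obtain ⟨n1, T1, x1, P1, C1, Ω1, i1, s1, l1, g1⟩ := hD X Y Z1 Q n r (4 * J) T W ι f θ ρn ρ5 κ ξ B
    d1 (hn.trans N.z) hJ4 N.j1 ((N.rk cD le_rfl y6).trans (by linarith only [hRn, r0])) hr hι d2
    (by linarith only [d3, N.ll, hT, l0]) hQ hf (zero_le_one.trans t1) t2 r1 r2 r3 hκ hB h3
  replace s1 : Shr n T n1 T1 R s Λ := s1.mono (N.rk cD le_rfl y6) N.se.ge d3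
  obtain ⟨o1, -, o3, o4⟩ := okk s1 (by linarith only [r0]) (by linarith only [s4, s0])
    (by linarith only [l0])
  -- second step
  obtain ⟨d1, d2, d3⟩ := N.par cS N.y4 (N.y6.trans N.z1) N.z2
  obtain ⟨T2, x2, P2, C2, Ω2, i2, s2, sy, l2, g2⟩ := hS X Y4 Z1 Q n1 T1 W _ _ _ _ _ C1 Ω1 d1
    (o1.trans N.z) hca d2 (d3.trans o3) o4 (fun x => hf' N.y4 _) v1.1 v1.2 hl0
    (inv_le r1 N.y4) (N.k1 cD) l1 g1
  replace s2 : Shr n1 T1 n1 T2 0 0 Λ := s2.mono le_rfl le_rfl d3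
  have s12 := s1.trans s2 s0 le_rfl zero_le_one l0
  obtain ⟨-, o2, o3, o4⟩ := okk s12 (by linarith only [r0]) (by linarith only [s4, s0])
    (by linarith only [l0])
  -- third step
  obtain ⟨q, Ψ, l3, g3⟩ := hC Y4 Q n1 T2 W _ _ _ _ _ C2 Ω2
    (le_trans (by exact_mod_cast cC) N.cY) hca (two_lt N.w2 s2.2.2.1 o4) (fun x => (hf _).1)
    v2 hl0 (inv_le r1 N.y4) (div_pos (Real.exp_pos _) four_pos) l2 sy g2
  obtain ⟨u, v, hu, hv, g3⟩ := rectQ_iff.1 g3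
  -- fourth step
  have k2 := N.k2 cD cC
  have k3 : Real.exp (-Z2) ≤ Real.exp (-Y ^ CD) / 4 * Real.exp (-Y4 ^ CC) :=
    (Real.exp_le_exp.2 (neg_le_neg (N.z1.trans N.z2))).trans
      (k2.trans (half_le_self (mul_pos (div_pos (Real.exp_pos _) four_pos) (Real.exp_pos _)).le))
  obtain ⟨d1, d2, d3⟩ := N.par cR N.y4 ((N.y6.trans N.z1).trans N.z2) le_rfl
  obtain ⟨n3, T3, a0, b0, P3, q', K, i3, s3, tr, rg, g4⟩ := hR X Y4 Z2 Q n1 (4 * J) T2 W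
    ⌈Real.exp (Y6 ^ CF)⌉₊ _ _ _ _ _ (Real.exp (-Z2)) q Ψ u v d1 ((o1.trans N.z).trans N.z2) hJ4
    (N.j1.trans N.z2) ((N.rk cR N.y4 N.y6).trans o2) hca d2 (d3.trans o3) o4
    (fun x => ab (hf' z2 _) v3 N.two)
    hl0 (inv_le r1 z2) (N.k4 cF) k3 le_rfl l3 hu hv g3
  replace s3 : Shr n1 T2 n3 T3 R s Λ := s3.mono (N.rk cR N.y4 N.y6) N.se.ge d3
  obtain ⟨o1, o2, o3, o4⟩ := okk (s12.trans s3 (by linarith only [s0]) s0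
    (by linarith only [s4, s0]) (by linarith only [l0])) (by linarith only [r0])
    (by linarith only [s4, s0]) (by linarith only [l0])
  -- last step
  obtain ⟨d1, d2, d3⟩ := N.par cF y6 N.z1 N.z2
  have g5 := (hF X Y6 Z1 Q n3 (4 * J) T3 W _ _ _ _ _ _ _ q' Ψ K d1 (o1.trans N.z) hJ4 N.j1
    ((N.rk cF y6 le_rfl).trans o2) (hca.trans N.y6) d2 (d3.trans o3) o4
    (fun x => hf' y6 _) v3.1 v3.2 hl0 (inv_le r1 y6) k2 (Nat.le_ceil _)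
    (Real.exp_pos _).le (N.k5 cF) l3 tr rg
    (rectQ_iff.2 ⟨_, _, fun a => hu _, fun b => hv _, g4⟩)).mono v4
    (N.rk cF y6 le_rfl) N.se.ge d3 hcard.le le_rfl (N.k6 cF)
  have g6 := Inc.comp (f := fun z => f (x1 + P1 (x2 + P2 z))) (x0 := a0 + b0) i3 s3 g5 s0 s0
    (by linarith only [s4, s0]) l0
  have g7 := Inc.comp (f := fun z => f (x1 + P1 z)) (x0 := x2) i2 s2 g6 le_rfl
    (by linarith only [s0]) (by linarith only [s4, s0]) l0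
  have g8 := Inc.comp (f := f) (x0 := x1) i1 s1 g7 s0 (by linarith only [s0])
    (by linarith only [s4, s0]) l0
  exact g8.mono le_rfl (by linarith only [N.rr, r0]) (by linarith only [N.ss, s0])
    (by linarith only [N.ll, l0]) le_rfl le_rfl le_rfl

end

end Vale.Agent.P057Z.Mn
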